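import Vale.Agent.P227.Fin2.Defs
import Vale.Agent.P227.ZonoidMain
import Vale.Agent.P227.C2.Dim
import Vale.Agent.P227.Slab.Good
import Vale.Agent.P227.Slab.LemmaZ
import Vale.Agent.P227.Loc.Main

open MeasureTheory Filter Topology

namespace Vale.Agent.P227.Fin2

variable {n : ℕ}

lemma comb_eq (x : E n) (c : ℝ) (y : E n) : comb x c y = x + c • y := rfl

lemma neg_eq (x : E n) : neg x = -x := rfl

lemma scb {K : Set (E n)} (h : SymConvexBody K) : Vale.Agent.P227.SymConvexBody K :=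
  ⟨h.convex, h.isCompact, h.nonempty_interior, h.symm⟩

lemma evol_eq (K : Set (E n)) : evol K = Vale.Agent.P227.evol K := rfl

lemma supportFn_eq (K : Set (E n)) (u : E n) : supportFn K u = Vale.Agent.P227.supportFn K u := rfl

lemma logComb_eq (t : ℝ) (K L : Set (E n)) : logComb t K L = Vale.Agent.P227.logComb t K L := rfl

lemma zonoid {K : Set (E n)} (h : IsZonoid K) : Vale.Agent.P227.IsZonoid K := h

lemma coneNormal_iff {K : Set (E n)} (hK : SymConvexBody K) (ν : E n → E n) :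
    IsConeNormal K ν ↔ Vale.Agent.P227.IsConeNormal K ν := by
  unfold IsConeNormal Vale.Agent.P227.IsConeNormal
  refine and_congr_right fun _ => ?_
  have hfin : volume K < ⊤ := hK.isCompact.measure_lt_top
  have hmeas : MeasurableSet K := hK.isCompact.measurableSet
  rw [ae_iff, Measure.restrict_apply' hmeas]
  have hset : {x ∈ K | ¬ (‖ν x‖ = 1 ∧ ip x (ν x) = gauge K x * supportFn K (ν x))} =
      {a | ¬ (‖ν a‖ = 1 ∧ inner ℝ a (ν a) = gauge K a * Vale.Agent.P227.supportFn K (ν a))} ∩ K := by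
    ext x
    exact and_comm
  have hle : volume ({a | ¬ (‖ν a‖ = 1 ∧ inner ℝ a (ν a) =
      gauge K a * Vale.Agent.P227.supportFn K (ν a))} ∩ K) ≠ ⊤ :=
    ((measure_mono Set.inter_subset_right).trans_lt hfin).ne
  unfold evol vol
  rw [hset, ENNReal.toReal_eq_zero_iff]
  exact ⟨fun h => h.resolve_right hle, fun h => Or.inl h⟩

lemma reflection_eq (v w x : E n) : reflection v w x = x - (2 * inner ℝ x w) • v := by
  rw [reflection, comb_eq, neg_smul, sub_eq_add_neg]
  rfl

lemma inv_mem {m : ℕ} {v w : Fin m → E n} {K : Set (E n)} (h : Invariant v w K) :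
    ∀ i, ∀ x ∈ K, x - (2 * inner ℝ x (w i)) • v i ∈ K := by
  intro i x hx
  have := h.mem i x hx
  rwa [reflection_eq] at this

lemma ip_self {x : E n} : ip x x ≠ 0 ↔ x ≠ 0 := by
  unfold ip
  rw [Ne, inner_self_eq_zero]

lemma evenSmooth {f : E n → ℝ} (h : EvenSmooth f) :
    (∀ u, f (-u) = f u) ∧ ContDiffOn ℝ 2 f {u | u ≠ 0} := by
  refine ⟨h.even, ?_⟩
  have hs : {u : E n | ip u u ≠ 0} = {u | u ≠ 0} := by
    ext u
    exact ip_self
  have := h.smooth
  rwa [hs] at this

lemma slabs {K : Set (E n)} (h : IsSlabs K) : Vale.Agent.P227.IsSlabs K := h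

lemma good {K : Set (E n)} (hn : 0 < n) (hK : SymConvexBody K) (h : IsZonoid K ∨ IsSlabs K) :
    Vale.Agent.P227.Good K := by
  intro s t hs ht hst P L hP hL hle
  rcases h with h | h
  · exact Vale.Agent.P227.lemmaZ_zonoid hn hs ht hst (scb hK) h hP hL hle
  · exact Vale.Agent.P227.lemmaZ_slabs hs ht hst (scb hK) h hP hL hle

theorem part1 (n : ℕ) (K L : Set (E n)) (t : ℝ) (hn : 0 < n) (hK : SymConvexBody K)
    (hL : SymConvexBody L) (ht0 : 0 ≤ t) (ht1 : t ≤ 1)
    (hz : IsZonoid (logComb t K L) ∨ IsSlabs (logComb t K L)) :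
    evol K ^ (1 - t) * evol L ^ t ≤ evol (logComb t K L) := by
  have hW := (Vale.Agent.P227.logComb_facts hn (scb hK) (scb hL) ht0 ht1).1
  exact Vale.Agent.P227.log_bm_good (scb hK) (scb hL) ⟨ht0, ht1⟩
    (good hn ⟨hW.convex, hW.isCompact, hW.nonempty_interior, hW.symm⟩ hz)

theorem part2 (n : ℕ) (K L : Set (E n)) (hn : 0 < n) (hK : SymConvexBody K)
    (hz : IsZonoid K ∨ IsSlabs K) (hL : SymConvexBody L) :
    (∃ ν, IsConeNormal K ν) ∧
      ∀ ν, IsConeNormal K ν → evol K / n * Real.log (evol L / evol K) ≤ coneLogInt K L ν := by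
  refine ⟨?_, fun ν hν => ?_⟩
  · obtain ⟨ν, hν⟩ := Vale.Agent.P227.exists_measurable_normal hn (scb hK)
    exact ⟨ν, (coneNormal_iff hK ν).2 hν⟩
  · exact Vale.Agent.P227.log_minkowski_good hn (scb hK) (good hn hK hz) (scb hL) ν
      ((coneNormal_iff hK ν).1 hν).2

theorem part3 (n m : ℕ) (v w : Fin m → E n) (A : E n → E n) (K L : Set (E n)) (hn : n = m + 3)
    (hK : SymConvexBody K) (hL : SymConvexBody L)
    (iK : Invariant v w K) (iL : Invariant v w L) (hA : ExtraSymmetry v w A)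
    (aK : A '' K = K) (aL : A '' L = L) (t : ℝ) (ht0 : 0 ≤ t) (ht1 : t ≤ 1) :
    evol K ^ (1 - t) * evol L ^ t ≤ evol (logComb t K L) := by
  subst hn
  have h0 : A 0 = 0 := by
    have h := hA.linear 0 (-1) 0
    rw [comb_eq, comb_eq] at h
    simpa using h
  let A' : E (m + 3) →ₗ[ℝ] E (m + 3) :=
    { toFun := A
      map_add' := fun x y => by
        have h := hA.linear x 1 y
        rw [comb_eq, comb_eq] at h
        simpa using h
      map_smul' := fun c y => by
        have h := hA.linear 0 c y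
        rw [comb_eq, comb_eq, h0] at h
        simpa using h }
  have h := Vale.Agent.P227.C2.dim_main v w iK.biorth A' (by
      intro i x
      have h := hA.comm i x
      rw [reflection_eq, reflection_eq] at h
      exact h) hA.ne_one hA.ne_neg (scb hK)
    (scb hL) (inv_mem iK) (inv_mem iL) aK aL ht0 ht1
  have hfin : volume (Vale.Agent.P227.logComb t K L) ≠ ⊤ :=
    (Vale.Agent.P227.logComb_facts (by omega) (scb hK) (scb hL) ht0
      ht1).1.isCompact.measure_lt_top.ne
  have h2 := ENNReal.toReal_mono hfin h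
  rw [ENNReal.toReal_mul, ← ENNReal.toReal_rpow, ← ENNReal.toReal_rpow] at h2
  exact h2

theorem part4 (n : ℕ) (v w : Fin n → E n) (K : Set (E n)) (hn : 2 ≤ n)
    (hK : SymConvexBody K) (rK : Invariant v w K) (hC : C2Plus K) (g : E n → ℝ)
    (hg : EvenSmooth g) :
    ∃ c : ℝ, 0 ≤ c ∧ ∀ l : ℝ, 0 ≤ l → l ≤ 1 → LimZero (deficit K g l) (l * (1 - l) * c) := by
  obtain ⟨m, rfl⟩ : ∃ m, n = m + 2 := ⟨n - 2, by omega⟩
  have hC' : Vale.Agent.P227.Loc.C2Plus K :=
    ⟨(evenSmooth hC.smooth).2, fun u v hu hv h => hC.curv u v (ip_self.2 hu) (ip_self.2 hv) h⟩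
  obtain ⟨c, hc, h⟩ := Vale.Agent.P227.Loc.local_log_bm (scb hK) hC' v w rK.biorth (inv_mem rK)
    (evenSmooth hg).2 (evenSmooth hg).1
  exact ⟨c, hc, fun l _ _ => h l⟩

end Vale.Agent.P227.Fin2
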